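import Vale.Agent.N338.Net
import Vale.Agent.P338Z.Gen.CostF

/-!
P338, sharper exponent (2): the sizes of the lists of passes in terms of the true numbers of calls.
-/

namespace Vale.Agent.N338

open Vale.Agent.P338Z Vale.Agent.P338Z.Cost
open Vale.Agent.Lib.PolyTime (Un)

variable {ν : Nets} {lam lc : ℝ}

/-- **The size of the shear.** -/
theorem sz_genU' (h : Sv ν lam lc) (i : ℕ) : ∀ c : UC, 2 ^ (ν.r * i) ≤ c.2.1 →
    c.2.2.2.2.2.v ≤ ν.m ^ i → (sz (genU ν i c) : ℝ) ≤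
      (18 * Nat.size c.2.2.2.2.1 * lam ^ i + cU ν * (ν.m : ℝ) ^ i) * c.2.1 := by
  have hl := h.ge
  induction i with
  | zero =>
    intro c hN _
    have h1 : 1 ≤ c.2.1 := le_trans Nat.one_le_two_pow hN
    have h2 : sz (genU ν 0 c) ≤ Nat.size c.2.2.2.2.1 * (9 * (c.2.1 + 1)) :=
      sz_range_le fun t _ => (sz_rotL _ _ _ _ _).le
    have h3 : sz (genU ν 0 c) ≤ 18 * Nat.size c.2.2.2.2.1 * c.2.1 := by
      refine h2.trans ?_
      rw [mul_comm 18, mul_assoc]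
      exact Nat.mul_le_mul_left _ (by omega)
    have h4 : (sz (genU ν 0 c) : ℝ) ≤ 18 * Nat.size c.2.2.2.2.1 * c.2.1 := by exact_mod_cast h3
    have h5 : (0 : ℝ) ≤ cU ν * c.2.1 := by positivity
    rw [pow_zero, pow_zero]
    linarith
  | succ i ih =>
    intro c hN hn
    obtain ⟨U, hU⟩ : ∃ U : ℝ, U = 18 * Nat.size c.2.2.2.2.1 * lam ^ i +
      cU ν * (ν.m : ℝ) ^ i := ⟨_, rfl⟩
    have hU0 : 0 ≤ U := by rw [hU]; positivity
    have h1 := sz_prog_le (l := ν.qp)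
      (f := fun x => (insU ν c x).flatMap fun y => y.1.elim y.2 (genU ν i)) (fun x => !x.1)
      (a := aU ν * (ν.m : ℝ) ^ i * c.2.1) (b := U * (c.2.1 / 2 ^ ν.r)) (fun x hx => by
        have h2 := sz_insU h.ok i c hN hn (genU ν i) hx
        have h3 := ih (callU ν c x.2.2.2.1 x.2.2.2.2) (le_div_pow hN) (div_le_pow hn)
        have h4 : (sz (genU ν i (callU ν c x.2.2.2.1 x.2.2.2.2)) : ℝ) ≤
            U * (c.2.1 / 2 ^ ν.r) := by
          refine h3.trans ?_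
          rw [hU]
          refine mul_le_mul_of_nonneg_left ?_ (hU ▸ hU0)
          have := div_le_real c.2.1 (2 ^ ν.r)
          push_cast at this
          exact this
        cases hb : x.1
        · rw [hb] at h2
          simp only [Bool.not_false, if_true] at h2 ⊢
          have h5 : (sz ((insU ν c x).flatMap fun y => y.1.elim y.2 (genU ν i)) : ℝ) ≤
              aU ν * (ν.m : ℝ) ^ i * c.2.1 + sz (genU ν i (callU ν c x.2.2.2.1 x.2.2.2.2)) := by
            exact_mod_cast h2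
          linarith
        · rw [hb] at h2
          simp only [Bool.not_true, Bool.false_eq_true, if_false] at h2 ⊢
          exact_mod_cast h2)
    have e : genU ν (i + 1) c = ν.qp.flatMap fun x => (insU ν c x).flatMap
        fun y => y.1.elim y.2 (genU ν i) := tree_succ _ _ _ _ _
    rw [e]
    refine h1.trans ?_
    have h6 := h.q
    have h7 : (ν.qp.length : ℝ) ≤ ν.S := by exact_mod_cast h.ok.lq.le
    have hN0 : (0 : ℝ) ≤ c.2.1 := Nat.cast_nonneg _
    have h8 := mul_le_mul_of_nonneg_right h6 (by positivity : 0 ≤ U * (c.2.1 / 2 ^ ν.r))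
    have h9 := mul_le_mul_of_nonneg_right h7 (by positivity : 0 ≤ aU ν * (ν.m : ℝ) ^ i * c.2.1)
    have e1 : lam * 2 ^ ν.r * (U * (c.2.1 / 2 ^ ν.r)) = lam * U * c.2.1 := by
      field_simp
    have e2 : (ν.S : ℝ) * (aU ν * (ν.m : ℝ) ^ i * c.2.1) + lam * U * c.2.1 ≤
        (18 * Nat.size c.2.2.2.2.1 * lam ^ (i + 1) + cU ν * (ν.m : ℝ) ^ (i + 1)) *
          c.2.1 := by
      have a1 : (ν.S : ℝ) * aU ν + lam * cU ν ≤ cU ν * ν.m := by
        have a2 := mul_le_mul_of_nonneg_right h.le (Nat.cast_nonneg (α := ℝ) (cU ν))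
        have a3 : (ν.S : ℝ) * aU ν + lamR ν.r ν.m * cU ν = cU ν * ν.m := by
          unfold lamR cU
          push_cast
          field_simp
          ring
        linarith
      have a4 := mul_le_mul_of_nonneg_right a1 (by positivity : 0 ≤ (ν.m : ℝ) ^ i * c.2.1)
      rw [hU, pow_succ lam, pow_succ (ν.m : ℝ)]
      linarith
    linarith

/-- **The size of `wadd`.** -/
theorem sz_wadd' (h : Sv ν lam lc) (L : Lay) (i Q N : ℕ) (g : ℕ → Pl) (hN : 2 ^ (ν.r * i) ≤ N) :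
    (sz (wadd ν L i (ν.m ^ i) Q N g) : ℝ) ≤
      (36 * Nat.size Q * lam ^ i + (2 * cU ν + 36) * (ν.m : ℝ) ^ i) * N := by
  have h1 : 1 ≤ N := le_trans Nat.one_le_two_pow hN
  have h2 : ∀ f : ℕ → Pl, (sz ((List.range (ν.m ^ i)).flatMap fun c =>
      rotL N (L.B (Lay.fo 0) * Q ^ c) Q (f c) fz) : ℝ) ≤ 18 * (ν.m : ℝ) ^ i * N := by
    intro f
    have h3 := sz_range_le (n := ν.m ^ i) (w := 18 * N)
      (f := fun c => rotL N (L.B (Lay.fo 0) * Q ^ c) Q (f c) fz) fun c _ => by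
        rw [sz_rotL]
        omega
    have h4 : ((ν.m ^ i * (18 * N) : ℕ) : ℝ) = 18 * (ν.m : ℝ) ^ i * N := by
      push_cast
      ring
    rw [← h4]
    exact_mod_cast h3
  have h5 := sz_genU' h i (false, N, L.B (L.fp 0), L.B (Lay.fo 0), Q, ⟨ν.m ^ i⟩) hN le_rfl
  have h6 := sz_genU' h i (true, N, L.B (L.fp 0), L.B (Lay.fo 0), Q, ⟨ν.m ^ i⟩) hN le_rfl
  have h7 := h2 g
  have h8 := h2 fun c => psm (Q - 1) (g c)
  unfold wadd
  simp only [sz_append]
  push_cast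
  simp only at h5 h6
  linarith

/-- The growth factor of the addition of selected bits. -/
noncomputable def mu (ν : Nets) (lam : ℝ) : ℝ := Real.sqrt (lam * ν.m)

theorem muX_sq' (h : Sv ν lam lc) : mu ν lam ^ 2 = lam * ν.m := by
  have h1 := h.ge
  have h2 := m_ge h.ok
  exact Real.sq_sqrt (by positivity)

theorem lamR_lt_muX' (h : Sv ν lam lc) : lam < mu ν lam := by
  have h1 := h.ge
  refine Real.lt_sqrt_of_sq_lt ?_
  rw [sq]
  exact mul_lt_mul_of_pos_left (h.le.trans_lt (lamR_lt _ _)) (by linarith)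

theorem muX_pow' (h : Sv ν lam lc) (i : ℕ) :
    (ν.m : ℝ) ^ (i / 2) * lam ^ ((i + 1) / 2) ≤ mu ν lam ^ i := by
  have h1 := h.ge
  have h2 := m_ge h.ok
  obtain ⟨k, rfl | rfl⟩ := Nat.even_or_odd' i
  · rw [show 2 * k / 2 = k by omega, show (2 * k + 1) / 2 = k by omega, pow_mul, muX_sq' h, mul_pow,
      mul_comm]
  · rw [show (2 * k + 1) / 2 = k by omega, show (2 * k + 1 + 1) / 2 = k + 1 by omega, pow_succ,
      pow_succ, pow_mul, muX_sq' h, mul_pow, ← mul_assoc, mul_comm ((ν.m : ℝ) ^ k)]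
    exact mul_le_mul_of_nonneg_left (lamR_lt_muX' h).le (by positivity)

theorem half_pow_le' (h : Sv ν lam lc) (i : ℕ) :
    (ν.m : ℝ) ^ ((i + 1) / 2) ≤ ν.m * mu ν lam ^ i := by
  have h1 := h.ge
  have h2 := m_ge h.ok
  have h3 : (ν.m : ℝ) ^ ((i + 1) / 2) ≤ (ν.m : ℝ) ^ (i / 2 + 1) :=
    pow_le_pow_right₀ (by linarith) (by omega)
  have h4 : (ν.m : ℝ) ^ (i / 2) ≤ (ν.m : ℝ) ^ (i / 2) * lam ^ ((i + 1) / 2) :=
    le_mul_of_one_le_right (by positivity) (one_le_pow₀ (by linarith))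
  rw [pow_succ'] at h3
  exact h3.trans (mul_le_mul_of_nonneg_left (h4.trans (muX_pow' h i)) (by linarith))

/-- **The size of the addition of selected bits.** -/
theorem sz_xorL' (h : Sv ν lam lc) (L : Lay) (i N km : ℕ) (tg : List (ℕ × Option ℕ))
    (hN : 2 ^ (ν.r * i) ≤ N) :
    (sz (xorL ν L (ν.m ^ i) N km tg) : ℝ) ≤ cX ν * (Nat.size L.R + 1) * mu ν lam ^ i * N := by
  have h1 : 1 ≤ N := le_trans Nat.one_le_two_pow hN
  have hm : 2 ≤ ν.m := le_trans (by norm_num) (Nat.le_of_dvd h.ok.mpos h.ok.m8)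
  have hN' : 2 ^ (ν.r * ((i + 1) / 2)) ≤ N :=
    le_trans (Nat.pow_le_pow_right (by norm_num) (Nat.mul_le_mul_left _ (by omega))) hN
  have hl := h.ge
  have hm8 := m_ge h.ok
  have hN0 : (1 : ℝ) ≤ N := by exact_mod_cast h1
  have hR : (0 : ℝ) ≤ Nat.size L.R := Nat.cast_nonneg _
  have hmu : (1 : ℝ) ≤ mu ν lam ^ i := one_le_pow₀ (by have := lamR_lt_muX' h; linarith)
  have s1 : (Nat.size (L.R ^ ν.m ^ (i / 2)) : ℝ) ≤ (ν.m : ℝ) ^ (i / 2) * (Nat.size L.R + 1) := by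
    have a1 := size_pow_le L.R (ν.m ^ (i / 2))
    have a2 : 1 ≤ ν.m ^ (i / 2) := Nat.one_le_pow _ _ h.ok.mpos
    have a3 : Nat.size (L.R ^ ν.m ^ (i / 2)) ≤ ν.m ^ (i / 2) * (Nat.size L.R + 1) := by
      rw [Nat.mul_add]
      omega
    exact_mod_cast a3
  have s2 : 36 * (Nat.size (L.R ^ ν.m ^ (i / 2)) : ℝ) * lam ^ ((i + 1) / 2) ≤
      36 * ((Nat.size L.R + 1) * mu ν lam ^ i) := by
    calc 36 * (Nat.size (L.R ^ ν.m ^ (i / 2)) : ℝ) * lam ^ ((i + 1) / 2)
        ≤ 36 * ((ν.m : ℝ) ^ (i / 2) * (Nat.size L.R + 1)) * lam ^ ((i + 1) / 2) := by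
          gcongr
      _ = 36 * ((Nat.size L.R + 1) * ((ν.m : ℝ) ^ (i / 2) * lam ^ ((i + 1) / 2))) := by
          ring
      _ ≤ _ := by
          have := muX_pow' h i
          gcongr
  have s3 : (2 * cU ν + 36) * (ν.m : ℝ) ^ ((i + 1) / 2) ≤
      (2 * cU ν + 36) * ν.m * ((Nat.size L.R + 1) * mu ν lam ^ i) := by
    rw [mul_assoc]
    refine mul_le_mul_of_nonneg_left ((half_pow_le' h i).trans ?_) (by positivity)
    exact mul_le_mul_of_nonneg_left (le_mul_of_one_le_left (by linarith) (by linarith))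
      (by linarith)
  have w : ∀ g : ℕ → Pl, (sz (wadd ν L ((i + 1) / 2) (ν.m ^ ((i + 1) / 2))
      (L.R ^ ν.m ^ (i / 2)) N g) : ℝ) ≤
      (36 + (2 * cU ν + 36) * ν.m) * ((Nat.size L.R + 1) * mu ν lam ^ i) * N := fun g =>
    (sz_wadd' h L _ _ N g hN').trans (mul_le_mul_of_nonneg_right (by linarith) (by linarith))
  have w1 := w (xg2 L (ν.m ^ (i / 2)) tg)
  have w2 := w (xg4 L (ν.m ^ (i / 2)) tg)
  have y1 : (1 : ℝ) ≤ (Nat.size L.R + 1) * mu ν lam ^ i :=
    one_le_mul_of_one_le_of_one_le (by linarith) hmu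
  have y2 : (N : ℝ) ≤ (Nat.size L.R + 1) * mu ν lam ^ i * N := le_mul_of_one_le_left (by linarith) y1
  unfold xorL
  rw [lg_pow hm]
  simp only [sz_append, sz_rotL, cX]
  push_cast
  linarith

/-- The constant of the complex network. -/
noncomputable def cD (ν : Nets) (lam lc : ℝ) : ℝ :=
  17 + ν.S * (10 + 2 * cX ν) * mu ν lam / (mu ν lam - lc)

theorem cC_ge' (h : Sv ν lam lc) : 17 ≤ cD ν lam lc := by
  have h1 := h.ge
  have h2 := lamR_lt_muX' h
  have h3 : 0 < mu ν lam - lc := sub_pos.2 (Real.lt_sqrt_of_sq_lt h.lt)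
  have h4 : 0 < mu ν lam := by linarith
  exact le_add_of_nonneg_right (by positivity)

theorem cC_step' (h : Sv ν lam lc) :
    ν.S * (10 + 2 * cX ν) * mu ν lam + lc * cD ν lam lc ≤ cD ν lam lc * mu ν lam := by
  have h2 := lamR_lt_muX' h
  have h3 : 0 < mu ν lam - lc := sub_pos.2 (Real.lt_sqrt_of_sq_lt h.lt)
  have h4 : cD ν lam lc * (mu ν lam - lc) =
      17 * (mu ν lam - lc) + ν.S * (10 + 2 * cX ν) * mu ν lam := by
    unfold cD
    field_simp
  linarith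

/-- **The size of the complex network.** -/
theorem sz_genC' (h : Sv ν lam lc) (i : ℕ) : ∀ c : CC, 2 ^ (ν.r * (2 * i)) ≤ c.2.1 →
    c.2.2.2.1.v = ν.m ^ i → (sz (genC ν i c) : ℝ) ≤
      cD ν lam lc * ((Nat.size c.2.2.2.2.2.R + 1) * mu ν lam ^ i) * c.2.1 := by
  have hl := h.ge
  have hmu := lamR_lt_muX' h
  have hC := cC_ge' h
  induction i with
  | zero =>
    intro c hN _
    have h1 : 1 ≤ c.2.1 := le_trans Nat.one_le_two_pow hN
    have h2 : sz (genC ν 0 c) ≤ 8 * c.2.1 + 9 := sz_sqL _ _ _ _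
    have h3 : sz (genC ν 0 c) ≤ 17 * c.2.1 := by omega
    have h4 : (sz (genC ν 0 c) : ℝ) ≤ 17 * c.2.1 := by exact_mod_cast h3
    refine h4.trans (mul_le_mul_of_nonneg_right ?_ (Nat.cast_nonneg _))
    have h5 : (0 : ℝ) ≤ Nat.size c.2.2.2.2.2.R := Nat.cast_nonneg _
    rw [pow_zero, mul_one]
    exact hC.trans (le_mul_of_one_le_right (by linarith) (by linarith))
  | succ i ih =>
    intro c hN hn
    obtain ⟨hN1, hN2⟩ := le_div_pow2 hN
    obtain ⟨Y, hY⟩ : ∃ Y : ℝ, Y = (Nat.size c.2.2.2.2.2.R + 1) * mu ν lam ^ i := ⟨_, rfl⟩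
    have hY1 : 1 ≤ Y := by
      have h5 : (0 : ℝ) ≤ Nat.size c.2.2.2.2.2.R := Nat.cast_nonneg _
      rw [hY]
      exact one_le_mul_of_one_le_of_one_le (by linarith) (one_le_pow₀ (by linarith))
    have hN0 : (0 : ℝ) ≤ c.2.1 := Nat.cast_nonneg _
    have hd : ((c.2.1 / 2 ^ ν.r : ℕ) : ℝ) ≤ c.2.1 / 2 ^ ν.r := by
      have := div_le_real c.2.1 (2 ^ ν.r)
      push_cast at this
      exact this
    have hd' : ((c.2.1 / 2 ^ ν.r : ℕ) : ℝ) ≤ c.2.1 := by exact_mod_cast Nat.div_le_self _ _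
    have hX : ∀ km tg, (sz (xorL ν c.2.2.2.2.2 c.2.2.2.1.v (c.2.1 / 2 ^ ν.r) km tg) : ℝ) ≤
        cX ν * (mu ν lam * Y) * c.2.1 := by
      intro km tg
      rw [hn]
      refine (sz_xorL' h _ (i + 1) _ km tg hN1).trans ?_
      have e : (cX ν : ℝ) * (Nat.size c.2.2.2.2.2.R + 1) * mu ν lam ^ (i + 1) =
          cX ν * (mu ν lam * Y) := by
        rw [hY]
        ring
      rw [e]
      exact mul_le_mul_of_nonneg_left hd' (by
        have : 0 < mu ν lam := by linarith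
        positivity)
    have hmu0 : 0 < mu ν lam := by linarith
    have h1 := sz_prog_le (l := ν.cp)
      (f := fun x => (insC ν c x).flatMap fun y => y.1.elim y.2 (genC ν i))
      (fun x => decide (x.1 = 1)) (a := 10 * c.2.1 + 2 * (cX ν * (mu ν lam * Y) * c.2.1))
      (b := cD ν lam lc * Y * (c.2.1 / 2 ^ ν.r)) (fun x hx => by
        refine (sz_insC h.ok c (by positivity) (le_trans Nat.one_le_two_pow hN1) hX (genC ν i)
          hx).trans (add_le_add_right ?_ _)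
        split_ifs
        · have h3 := ih (callC ν c x) hN2 (by
            show c.2.2.2.1.v / ν.m = _
            rw [hn, pow_succ, Nat.mul_div_cancel _ h.ok.mpos])
          refine h3.trans ?_
          rw [hY]
          exact mul_le_mul_of_nonneg_left hd (by positivity)
        · exact le_rfl)
    have e : genC ν (i + 1) c = ν.cp.flatMap fun x => (insC ν c x).flatMap
        fun y => y.1.elim y.2 (genC ν i) := tree_succ _ _ _ _ _
    rw [e]
    refine h1.trans ?_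
    have h6 := h.c
    have h7 : (ν.cp.length : ℝ) ≤ ν.S := by exact_mod_cast h.ok.lc.le
    have h8 := mul_le_mul_of_nonneg_right h6
      (by positivity : 0 ≤ cD ν lam lc * Y * (c.2.1 / 2 ^ ν.r))
    have h9 := mul_le_mul_of_nonneg_right h7
      (by positivity : 0 ≤ 10 * (c.2.1 : ℝ) + 2 * (cX ν * (mu ν lam * Y) * c.2.1))
    have e1 : lc * 2 ^ ν.r * (cD ν lam lc * Y * (c.2.1 / 2 ^ ν.r)) =
        lc * cD ν lam lc * (Y * c.2.1) := by
      field_simp
    have h10 : (c.2.1 : ℝ) ≤ mu ν lam * (Y * c.2.1) := by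
      rw [← mul_assoc]
      exact le_mul_of_one_le_left hN0 (one_le_mul_of_one_le_of_one_le (by linarith) hY1)
    have h11 := mul_le_mul_of_nonneg_left h10 (Nat.cast_nonneg (α := ℝ) ν.S)
    have h12 := mul_le_mul_of_nonneg_right (cC_step' h) (by positivity : 0 ≤ Y * c.2.1)
    have e2 : cD ν lam lc * ((Nat.size c.2.2.2.2.2.R + 1) * mu ν lam ^ (i + 1)) * c.2.1 =
        cD ν lam lc * mu ν lam * (Y * c.2.1) := by
      rw [hY]
      ring
    rw [e2]
    linarith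

/-- **The size of one group.** -/
theorem sz_hgrp' (h : Sv ν lam lc) (sh n j : ℕ) (L : Lay) (hK : L.K = ν.m ^ j) (h0 : 0 < L.N)
    (hN : 2 ^ (ν.r * (2 * j)) * L.N ≤ 4 * 2 ^ n) :
    (sz (hgrp ν sh n (ν.r * (2 * j)) j L) : ℝ) ≤
      (4 * cD ν lam lc + 50) * ((Nat.size L.R + 1) * mu ν lam ^ j) * 2 ^ n := by
  have hl := h.ge
  have hmu := lamR_lt_muX' h
  have hC := cC_ge' h
  have h1 := sz_genC' h j (false, 2 ^ (ν.r * (2 * j)) * L.N, 0, ⟨L.K⟩, sh, L)
    (Nat.le_mul_of_pos_right _ h0) hK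
  have hN' : ((2 ^ (ν.r * (2 * j)) * L.N : ℕ) : ℝ) ≤ 4 * 2 ^ n := by exact_mod_cast hN
  obtain ⟨Y, hY⟩ : ∃ Y : ℝ, Y = (Nat.size L.R + 1) * mu ν lam ^ j := ⟨_, rfl⟩
  have hY1 : 1 ≤ Y := by
    have h5 : (0 : ℝ) ≤ Nat.size L.R := Nat.cast_nonneg _
    rw [hY]
    exact one_le_mul_of_one_le_of_one_le (by linarith) (one_le_pow₀ (by linarith))
  simp only at h1
  rw [← hY] at h1 ⊢
  have h2 := mul_le_mul_of_nonneg_left hN' (by positivity : 0 ≤ cD ν lam lc * Y)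
  have h3 : (1 : ℝ) ≤ 2 ^ n := one_le_pow₀ (by norm_num)
  have h4 : (2 : ℝ) ^ n ≤ Y * 2 ^ n := le_mul_of_one_le_left (by linarith) hY1
  simp only [hgrp, hmid, sz_append, sz_relL, sz_subL, sz_pDia, Nat.cast_add, Nat.cast_mul 3,
    Nat.cast_mul 4, Nat.cast_ofNat, Nat.cast_one, Nat.cast_pow, mul_zero, Nat.cast_zero]
  linarith

end Vale.Agent.N338
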