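import Vale.Agent.P338Z.Gen.Fh
import Vale.Agent.P338Z.Gen.Pt2
import Vale.Agent.P338Z.Gen.CostF

/-!
P338, sharper exponent (3): the fast step with a deeper recursion (`2 ^ (34 j) ≤ d` in place of
`2 ^ (160 j) ≤ d`); the words are long enough for the larger scales.
-/

namespace Vale.Agent.N338

open Vale.Agent.P338Z Vale.Agent.P338Z.FhH Vale.Agent.P338Z.Pt2
open Vale.Agent.Lib.PolyTime
open Vale.Agent.P338.R3.H968 Vale.Agent.P338.R3.H898
open Vale.Agent.P338.R3.H313 (PV KP pt_d pbd_d)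
open Vale.Agent.P338.R3.H501.Rad (aR)
open Vale.Agent.P338.R3.H121 (cpar cpar_ok wW sc bW le_wW_of le_wW)

/-- The same networks, with a smaller base for the depth of the recursion. -/
def sm (ν : Nets) : Nets := { ν with S := 2 ^ 17 }

theorem gam_sm (ν : Nets) : gam (sm ν) = gam ν := by
  funext i
  induction i with
  | zero => rfl
  | succ i ih =>
    rw [gam, gam, ih]
    rfl

theorem insC_sm (ν : Nets) : insC (sm ν) = insC ν := by
  funext c x
  unfold insC
  rw [gam_sm]
  rfl

theorem hgrp_sm (ν : Nets) : hgrp (sm ν) = hgrp ν := by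
  funext sh n ρ j L
  unfold hgrp hmid genC
  rw [gam_sm, insC_sm]
  rfl

theorem hg_sm {ν : Nets} (h : HG ν) : HG (sm ν) := by
  unfold HG
  rw [hgrp_sm, gam_sm]
  exact h

/-- The fast step is correct if the words have some more room. -/
def FH2 (ν : Nets) : Prop := ∀ (p : PV) (t β : ℕ) (J : List ℕ), p.d + 1 ≤ p.s → t < aR p.d →
  J.Pairwise (· < ·) → (∀ i ∈ J, i < p.d) →
  β + 3 * p.d + 8 + wW p.d p.s p.y ≤ (cpar p.d p.s p.y).b →
  Blk (cpar p.d p.s p.y) (fastH ν p t J) (4 * 2 ^ (KP p + 2)) fun F F' =>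
    (∀ u < 2 ^ (KP p + 2), ∀ k < (cpar p.d p.s p.y).nw, |F u k| ≤ 2 ^ β) →
    (∀ u, 2 ^ (KP p + 2) ≤ u → u < 4 * 2 ^ (KP p + 2) → F u = cZero) →
    (∀ u < 2 ^ (KP p + 2), F' u = (J.map fun i => aR p.d * i + t + 2).foldr hF F u) ∧
      ∀ u, 2 ^ (KP p + 2) ≤ u → u < 4 * 2 ^ (KP p + 2) → F' u = cZero

theorem fh_of' {ν : Nets} (hn : NAI) (hg : HG ν) (hm : 0 < ν.m)
    (hm1 : ∀ d, 1 ≤ dep ν d → ν.m ^ dep ν d ≤ d)
    (hm2 : ∀ d, 1 ≤ dep ν d → ∀ i ≤ dep ν d, gam ν i ≤ d ^ 8) : FH2 ν := by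
  intro p t β J hs ht hJ hd hb
  have w1 : p.d ≤ wW p.d p.s p.y :=
    le_wW_of (c := 1) (k := 1) p.y (by norm_num) (by norm_num) (by rw [pow_one]; omega)
  have w2 := le_wW (d := p.d) (s := p.s) p.y
  have eb : (cpar p.d p.s p.y).b = 64 * wW p.d p.s p.y := rfl
  have es : (cpar p.d p.s p.y).s = 16 * wW p.d p.s p.y := rfl
  have a1 : p.d + 3 ≤ aR p.d := by
    show p.d + 3 ≤ p.d ^ 2 + 3
    exact Nat.add_le_add_right (Nat.le_self_pow two_ne_zero p.d) 3
  have a2 : ∀ i j, i < j → aR p.d * i + aR p.d ≤ aR p.d * j := fun i j k =>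
    (Nat.mul_succ _ _).ge.trans (Nat.mul_le_mul_left _ k)
  have bp : ∀ i ∈ J, bpos p t i = aR p.d * i + t + 2 := fun i hi => by
    have := a2 i _ (hd i hi)
    unfold bpos KP
    omega
  have hl : J.length ≤ p.d := by
    have := (List.subperm_of_subset (hJ.imp ne_of_lt)
      fun i hi => List.mem_range.2 (hd i hi)).length_le
    rwa [List.length_range] at this
  have pm : ((inner p J).take (ngr ν p J * ν.m ^ dep ν p.d) ++
      ((inner p J).drop (ngr ν p J * ν.m ^ dep ν p.d) ++ outer p J)).Perm J := by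
    rw [← List.append_assoc, List.take_append_drop]
    exact List.filter_append_perm _ _
  have e1 : ((List.range (ngr ν p J)).flatMap fun g => (((inner p J).drop
      (g * ν.m ^ dep ν p.d)).take (ν.m ^ dep ν p.d)).map (bpos p t)) =
      ((inner p J).take (ngr ν p J * ν.m ^ dep ν p.d)).map (bpos p t) := by
    rw [← groups, List.map_flatMap]
  have e2 : ∀ l : List ℕ, (l.flatMap fun i => [bpos p t i]) = l.map (bpos p t) := fun l =>
    List.map_eq_flatMap.symm
  have hl2 := pm.length_eq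
  rw [List.length_append] at hl2
  have key : Gd (cpar p.d p.s p.y) (KP p + 2) β (fastH ν p t J) (J.map (bpos p t)) := by
    refine Gd.perm (Gd.append (Gd.flatMap (β' := β + p.d) (g := fun g => (((inner p J).drop
      (g * ν.m ^ dep ν p.d)).take (ν.m ^ dep ν p.d)).map (bpos p t)) _ β (fun g hg' => ?_) ?_)
      (Gd.flatMap (β' := β + p.d) (g := fun i => [bpos p t i]) _ _ (fun i hi => ?_) ?_)) ?_
    · have g1 := List.mem_range.1 hg'
      unfold ngr at g1
      cases hgd : good ν p.d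
      · simp [hgd] at g1
      rw [hgd, cond_true] at g1
      simp only [good, Bool.and_eq_true, decide_eq_true_eq] at hgd
      obtain ⟨c1, c2, c3⟩ := hgd
      have m1 : ν.m ^ dep ν p.d ≤ p.d := hm1 _ c1
      have m2 : ∀ i ≤ dep ν p.d, gam ν i ≤ wW p.d p.s p.y := fun i hi =>
        (hm2 _ c1 i hi).trans ((Nat.pow_le_pow_left (by omega) 8).trans
          (Nat.le_mul_of_pos_left _ (by norm_num)))
      have m3 := m2 _ le_rfl
      have sl : (((inner p J).drop (g * ν.m ^ dep ν p.d)).take (ν.m ^ dep ν p.d)).Sublist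
          (inner p J) := (List.take_sublist _ _).trans (List.drop_sublist _ _)
      have ln : ((((inner p J).drop (g * ν.m ^ dep ν p.d)).take (ν.m ^ dep ν p.d)).map
          (bpos p t)).length = ν.m ^ dep ν p.d := by
        have := (Nat.le_div_iff_mul_le (pow_pos hm _)).1 g1
        rw [Nat.succ_mul] at this
        rw [List.length_map, List.length_take, List.length_drop]
        omega
      have mem : ∀ q ∈ (((inner p J).drop (g * ν.m ^ dep ν p.d)).take (ν.m ^ dep ν p.d)).map
          (bpos p t), aR p.d + 2 ≤ q ∧ q + aR p.d ≤ aR p.d * p.d + 1 := fun q hq => by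
        obtain ⟨i, hi, rfl⟩ := List.mem_map.1 hq
        have k := List.mem_filter.1 (sl.subset hi)
        simp only [Bool.and_eq_true, decide_eq_true_eq] at k
        have k1 := a2 0 i k.2.1
        have k2 := a2 _ _ k.2.2
        rw [Nat.mul_succ] at k2
        rw [bp i k.1]
        omega
      refine ⟨fun q hq => ?_, (hg (cpar p.d p.s p.y) (wid ν p.d) (KP p + 2) (aR p.d - 1)
        (dep ν p.d) (β + p.d) _ (cpar_ok _ _ _) c1 ln ?_ (fun q hq => ?_) ?_ ?_ (fun i hi => ?_)
        (by omega) (by omega) (by omega)).mono fun F F' k b _ => k b⟩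
      · have := mem q hq
        unfold KP
        omega
      · refine List.pairwise_map.2 ((hJ.sublist (sl.trans List.filter_sublist)).imp_of_mem
          fun {i j} hi hj k => ?_)
        have := a2 i j k
        rw [bp i ((sl.trans List.filter_sublist).subset hi),
          bp j ((sl.trans List.filter_sublist).subset hj)]
        omega
      · have := mem q hq
        rw [ln]
        unfold KP
        omega
      · rw [ln]
        exact (Nat.lt_size_self _).le
      · rw [ln]
        refine (Nat.mul_le_mul_right _ (Nat.lt_size_self _).le).trans ?_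
        rw [← pow_add]
        exact Nat.pow_le_pow_right two_pos (by omega)
      · have := m2 i hi
        omega
    · rw [e1, List.length_map]
      omega
    · have k : i ∈ J := pm.subset (List.mem_append_right _ hi)
      have := a2 i _ (hd i k)
      refine gd_nai hn _ (cpar_ok _ _ _) (by omega) ?_ ?_
      · rw [bp i k]
        omega
      · rw [bp i k]
        unfold KP
        omega
    · rw [e1, e2, List.length_map, List.length_map]
      omega
    · rw [e1, e2, ← List.map_append]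
      exact pm.map _
  rw [List.map_congr_left bp] at key
  exact key.2

theorem dep_sm (ν : Nets) (d : ℕ) : dep (sm ν) d = Nat.log (2 ^ 17) d / 2 := by
  rw [dep, ← lg_eq_log (by norm_num)]
  rfl

theorem pow_dep_sm (ν : Nets) {d : ℕ} (h : 1 ≤ dep (sm ν) d) : 2 ^ (34 * dep (sm ν) d) ≤ d := by
  rw [dep_sm] at h ⊢
  have h4 : d ≠ 0 := by
    rintro rfl
    simp at h
  refine le_trans ?_ (Nat.pow_log_le_self (2 ^ 17) h4)
  rw [← pow_mul]
  exact Nat.pow_le_pow_right (by norm_num) (by omega)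

theorem fh_sm {ν : Nets} (hn : NAI) (hg : HG ν) (h : ν.Ok) : FH2 (sm ν) := by
  refine fh_of' hn (hg_sm hg) h.mpos (fun d hd => ?_) fun d hd i hi => ?_
  · refine ((Cost.m_pow_le h _).trans ?_).trans (pow_dep_sm ν hd)
    exact Nat.pow_le_pow_right (by norm_num) (by omega)
  · rw [gam_sm]
    refine ((gam_le h i).trans ?_).trans (Nat.pow_le_pow_left (pow_dep_sm ν hd) 8)
    rw [h.S, ← pow_add, ← pow_mul, ← pow_mul]
    exact Nat.pow_le_pow_right (by norm_num) (by omega)

theorem pbd_mdep' {α : Type} [Enc α] {ν : Nets} {p : α → PV} (h : ν.Ok) (hp : PT ∅ p) :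
    PBd fun a => ν.m ^ dep (sm ν) (p a).d :=
  (pbd_pow (by norm_num) ν.m (pbd_pow_lg (m := 2 ^ 17) (by norm_num)
    (pbd_d hp))).mono fun _ => Nat.pow_le_pow_right h.mpos (Nat.div_le_self _ _)

theorem fpt_sm {ν : Nets} (hc : CPT ν) (h : ν.Ok) : FPT (sm ν) := by
  intro α _ p t J hp ht hJ
  unfold fastH
  rw [hgrp_sm]
  have hp' := hp.comp (PT.fst' (β := ℕ))
  have ht' := ht.comp (PT.fst' (β := ℕ))
  have hJ' := hJ.comp (PT.fst' (β := ℕ))
  refine PT.append (PT.flatMap (PT.range (pt_ngr hp hJ) (pbd_ngr hp hJ)) ?_)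
    (PT.flatMap (((pt_inner hp hJ).drop ((pt_ngr hp hJ).mul (pt_mdep hp))).append
      (pt_outer hp hJ)) ?_)
  · refine pt_hgrp hc h (pt_sc hp') (pt_n hp') (pbd_n hp') (pt_rho hp')
      ((PBd.const _).mul ((PBd.const 2).mul (pbd_dep hp'))) (pt_dep hp') (pbd_mdep' h hp')
      (pt_mkLay ν.Δ (pt_wid hp') (pbd_wid hp') (pt_n hp') (pbd_n hp') (pt_rho hp') ?_
        (pbd_n hp') (pt_n hp') fun a x hx => ?_)
    · exact PT.map (f := fun (a : α × ℕ) i => bpos (p a.1) (t a.1) i)
        (((pt_inner hp' hJ').drop (PT.snd'.mul (pt_mdep hp'))).take (pt_mdep hp'))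
        (pt_bpos (hp'.comp PT.fst') (ht'.comp PT.fst') PT.snd')
    · obtain ⟨i, -, rfl⟩ := List.mem_map.1 hx
      exact min_le_right _ _
  · exact pt_subL (PT.const 0) (pt_naiL (pt_sc hp') (pt_two (pt_n hp') (pbd_n hp'))
      (pt_bpos hp' ht' PT.snd') ((pbd_n hp').mono fun _ => min_le_right _ _))

end Vale.Agent.N338
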