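import Vale.Agent.N338.Fast
import Vale.Agent.P338Z.Pre

/-!
P338, sharper exponent (5): the end of the proof for an arbitrary rate of the fast step.
-/

namespace Vale.Agent.N338

open Vale.Agent.P338Z Vale.Agent.P338Z.Nm

section passes

open Vale.Agent.P338.R2.H898 Vale.Agent.P338.R3.H772 Vale.Agent.P338.R3.H831
open Vale.Agent.P338.R3.H121 Vale.Agent.P338.R3.H501.Rad
open Vale.Agent.P338.R3.H313 (PV KP GP)
open Vale.Agent.P338.R3.H282 (Geo St DC Ly)
open Vale.Agent.P338.R3.H352 (Dc)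

/-- Passes of a fast step that do not depend on the number of its bits. -/
noncomputable def sgE (d : ℕ) : ℝ := ((d : ℝ) + 1) ^ (42 / 85 : ℝ) + 1

theorem one_le_sgE (d : ℕ) : 1 ≤ sgE d := by
  have : (0 : ℝ) ≤ ((d : ℝ) + 1) ^ (42 / 85 : ℝ) := by positivity
  unfold sgE
  linarith

theorem sgE_le {d : ℕ} (hd : 1 ≤ d) : sgE d ≤ 3 * (d : ℝ) ^ (42 / 85 : ℝ) := by
  have hd1 : (1 : ℝ) ≤ d := by exact_mod_cast hd
  have h1 : ((d : ℝ) + 1) ^ (42 / 85 : ℝ) ≤ (2 * d) ^ (42 / 85 : ℝ) :=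
    Real.rpow_le_rpow (by positivity) (by linarith) (by norm_num)
  rw [Real.mul_rpow (by norm_num) (by linarith)] at h1
  have h2 : (2 : ℝ) ^ (42 / 85 : ℝ) ≤ 2 := by
    calc (2 : ℝ) ^ (42 / 85 : ℝ) ≤ 2 ^ (1 : ℝ) :=
          Real.rpow_le_rpow_of_exponent_le (by norm_num) (by norm_num)
      _ = 2 := Real.rpow_one _
  have h3 : (1 : ℝ) ≤ (d : ℝ) ^ (42 / 85 : ℝ) := Real.one_le_rpow hd1 (by norm_num)
  have h4 := mul_le_mul_of_nonneg_right h2 (by linarith : (0 : ℝ) ≤ (d : ℝ) ^ (42 / 85 : ℝ))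
  unfold sgE
  linarith

/-- Passes per bit of a fast step. -/
noncomputable def rtE (e : ℝ) (d : ℕ) : ℝ := ((d : ℝ) + 1) ^ (-e)

theorem rtE_pos (e : ℝ) (d : ℕ) : 0 < rtE e d := by
  unfold rtE
  positivity

/-- The number of passes. -/
noncomputable def passE (e : ℝ) (d s : ℕ) : ℝ :=
  uC d s * sgE d + vC d s * rtE e d + uC d s * sgB (d + s)

theorem one_le_passE (e : ℝ) (d s : ℕ) (hs : d + 1 ≤ s) : 1 ≤ passE e d s := by
  have h1 := one_le_sgE d
  have h2 := mul_nonneg (vC_nonneg d s) (rtE_pos e d).le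
  have h3 := one_le_uC (s := s) (by omega) d
  have h4 : uC d s * 1 ≤ uC d s * sgE d := mul_le_mul_of_nonneg_left h1 (by linarith)
  have h5 := mul_nonneg (uC_nonneg d s) (sgB_nonneg (d + s))
  unfold passE
  linarith

theorem passOKE {e : ℝ} (he0 : 0 ≤ e) (he : e ≤ 1 / 200) : PassOK (1 - e / 3) (passE e) := by
  refine ⟨one_le_passE e, fun c hc => ?_⟩
  obtain ⟨C2, hC2, h2'⟩ := sgB_le_rpow hc
  refine ⟨3 * (2 * c + 8) + (2 * c + 4) + (2 * c + 8) * C2, by positivity,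
    fun d s hd hds hs => ?_⟩
  have hd1 : (1 : ℝ) ≤ d := by exact_mod_cast hd
  have hd0 : (0 : ℝ) < d := by linarith
  have h1 := passes_le hc hd hs
  have h2 := sgE_le hd
  have h3 := vC_le hc hd hs
  have h4 : rtE e d ≤ (d : ℝ) ^ (-e) :=
    Real.rpow_le_rpow_of_nonpos hd0 (by linarith) (by linarith)
  have h5 : ∀ x : ℝ, x ≤ 42 / 85 →
      (d : ℝ) ^ 2 * Real.sqrt d * (d : ℝ) ^ x ≤ (d : ℝ) ^ (3 * (1 - e / 3)) := fun x hx => by
    rw [Real.sqrt_eq_rpow, ← Real.rpow_natCast, ← Real.rpow_add hd0, ← Real.rpow_add hd0]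
    apply Real.rpow_le_rpow_of_exponent_le hd1
    push_cast
    linarith
  have h6 : (d : ℝ) ^ 3 * (d : ℝ) ^ (-e) = (d : ℝ) ^ (3 * (1 - e / 3)) := by
    rw [← Real.rpow_natCast, ← Real.rpow_add hd0]
    congr 1
    push_cast
    ring
  have a1 : uC d s * sgE d ≤
      (2 * c + 8) * ((d : ℝ) ^ 2 * Real.sqrt d) * (3 * (d : ℝ) ^ (42 / 85 : ℝ)) :=
    mul_le_mul h1 h2 (by have := one_le_sgE d; linarith) (by positivity)
  have a2 : vC d s * rtE e d ≤ (2 * c + 4) * (d : ℝ) ^ 3 * (d : ℝ) ^ (-e) :=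
    mul_le_mul h3 h4 (rtE_pos e d).le (by positivity)
  have a3 := mul_le_mul_of_nonneg_left (h5 _ le_rfl) (by positivity : 0 ≤ 3 * (2 * c + 8))
  have a4 : uC d s * sgB (d + s) ≤
      (2 * c + 8) * ((d : ℝ) ^ 2 * Real.sqrt d) * (C2 * (d : ℝ) ^ (1 / 8 : ℝ)) :=
    mul_le_mul h1 (h2' d s hd hs) (sgB_nonneg _) (by positivity)
  have a5 := mul_le_mul_of_nonneg_left (h5 (1 / 8) (by norm_num))
    (by positivity : 0 ≤ (2 * c + 8) * C2)
  rw [mul_assoc (2 * c + 4), h6] at a2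
  unfold passE
  linarith

/-- **The cost of the grouped schedule.** -/
theorem schedE_le (e : ℝ) (p : PV) {v : St Dc → ℝ} {C : ℝ} (hC : 0 ≤ C)
    (hH : ∀ st ∈ fw2 p ++ bk2 p, ∀ t J, isH st = some (t, J) →
      v st ≤ C * (sgE p.d + J.length * rtE e p.d))
    (hN : ∀ st ∈ fw2 p ++ bk2 p, isH st = none → v st ≤ C * (sgB (p.d + p.s) * (1 + nj st))) :
    ((fw2 p ++ bk2 p).map v).sum ≤ 620 * C * passE e p.d p.s := by
  have h1 := one_le_sgE p.d
  have h2 := rtE_pos e p.d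
  have h3 := sgB_nonneg (p.d + p.s)
  have hu := uC_nonneg p.d p.s
  have hv := vC_nonneg p.d p.s
  have a1 : 0 ≤ C * sgE p.d := mul_nonneg hC (by linarith)
  have a2 : 0 ≤ C * sgB (p.d + p.s) := mul_nonneg hC h3
  have a3 : 0 ≤ C * rtE e p.d := mul_nonneg hC h2.le
  have h := sum_steps_le (v := v) (a := C * sgE p.d + C * sgB (p.d + p.s))
    (b := C * sgB (p.d + p.s)) (c := C * rtE e p.d) (fw2 p ++ bk2 p) (fun st hst => by
      have b1 : 0 ≤ C * sgB (p.d + p.s) * nj st := mul_nonneg a2 (Nat.cast_nonneg _)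
      have b2 : 0 ≤ C * rtE e p.d * nl st := mul_nonneg a3 (Nat.cast_nonneg _)
      cases hst' : isH st with
      | none =>
        have := hN st hst hst'
        linarith
      | some x =>
        have h4 := hH st hst x.1 x.2 hst'
        have h5 : nl st = x.2.length := by
          rw [isH_some (t := x.1) (J := x.2) hst']
          rfl
        rw [h5]
        linarith)
  have b1 := mul_le_mul_of_nonneg_left (length2_le p) (add_nonneg a1 a2)
  have b2 := mul_le_mul_of_nonneg_left (nj2_le p) a2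
  have b3 := mul_le_mul_of_nonneg_left (nl2_le p) a3
  have c1 := mul_nonneg a1 hu
  have c2 := mul_nonneg a2 hu
  have c3 := mul_nonneg a3 hv
  rw [passE]
  push_cast at b1 b2 b3
  linarith

end passes

open Vale.Agent.Lib.PolyTime
open Vale.Agent.P338.R2.H898 (MTM Multiplies mulTime)
open Vale.Agent.P338.R3
open Vale.Agent.P338.R3.H282 (Geo St DC Ly)
open Vale.Agent.P338.R3.H352 (Dc)
open Vale.Agent.P338.R3.H313 (PV GP KP Mc len ev ldv ulv stM)
open Vale.Agent.P338.R3.H313.Ctl (stepActs stepIters nTs nUs insS)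
open Vale.Agent.P338.R3.H501.Rad (aR NR)
open Vale.Agent.P338.R3.H968 (CPar Cell DS)
open Vale.Agent.P338.R3.H898 (Act wts)
open Vale.Agent.P338.R3.H121 (bW cpar nz nj nd VP capP)
open Vale.Agent.P338.R3.H50 (pActs prActs loadActs unloadActs)
open Vale.Agent.P338.R3.H527 (best)
open Vale.Agent.P338.R3.H831 (sgB)

/-- What is required of the generator, with the rate `e`. -/
def GenE (e : ℝ) : Prop :=
  ∃ (fast : PV × ℕ × List ℕ → List Ps) (tl : PV → List Ps) (T : PV → List Cell) (C : ℝ),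
    0 < C ∧ PT ∅ fast ∧ PT ∅ tl ∧ ∀ p : PV, p.d + 1 ≤ p.s → 1 ≤ p.y →
      TailOK Fx p (T p) (acts (bP p) (tl p)) ∧
      HadOK Fx p (T p) (fun t J => acts (bP p) (fast (p, t, J))) ∧
      (sz (tl p) : ℝ) ≤ C * 2 ^ KP p ∧
      ∀ (t : ℕ) (J : List ℕ), t < aR p.d → J.Nodup → (∀ i ∈ J, i < p.d) →
        (sz (fast (p, t, J)) : ℝ) ≤ C * (2 ^ KP p * (sgE p.d + J.length * rtE e p.d))

variable (cw : PV × DC Dc × ℕ → List Bool × List Bool) {fast : PV × ℕ × List ℕ → List Ps}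
  {tl : PV → List Ps}

theorem countsE (e : ℝ) (h : PCOST) {C : ℝ} (hC : 0 < C)
    (hs : ∀ p : PV, p.d + 1 ≤ p.s → 1 ≤ p.y → (sz (tl p) : ℝ) ≤ C * 2 ^ KP p ∧
      ∀ (t : ℕ) (J : List ℕ), t < aR p.d → J.Nodup → (∀ i ∈ J, i < p.d) →
        (sz (fast (p, t, J)) : ℝ) ≤ C * (2 ^ KP p * (sgE p.d + J.length * rtE e p.d))) :
    Counts (passE e) (fun p => (sched2 fast tl p).flatMap (stepActs len2 (ev2 cw) p))
      fun p => ((sched2 fast tl p).map (stepIters len2 (ev2 cw) p)).sum := by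
  refine ⟨4 * (621 * (8 * C + 30)), by positivity, fun p hds hy => ?_⟩
  obtain ⟨h1, h2⟩ := hs p hds hy
  have hT : (1 : ℝ) ≤ 2 ^ KP p := one_le_pow₀ (by norm_num)
  have hp := one_le_passE e p.d p.s hds
  have h3 := schedE_le e p (v := fun st => (wS cw p (stC fast p st) : ℝ))
    (C := (8 * C + 30) * 2 ^ KP p) (by positivity) (fun st hst t J hH => by
      obtain ⟨a1, a2, a3⟩ := isH_ok hst hH
      have a4 := h2 t J a1 a2 a3
      have a5 : 0 ≤ 2 ^ KP p * (sgE p.d + J.length * rtE e p.d) := by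
        have := one_le_sgE p.d
        have := rtE_pos e p.d
        positivity
      simp only [stC, hH, wS_cR]
      push_cast
      linarith) (fun st _ hH => by
      have a1 := old_len cw p st
      have a2 := H121.one_le_sgB (p.d + p.s)
      have a3 : (0 : ℝ) ≤ 2 ^ KP p * (1 + nj st) := by positivity
      have a4 := mul_le_mul_of_nonneg_left a2 a3
      have a5 : 0 ≤ C * (2 ^ KP p * (1 + nj st) * sgB (p.d + p.s)) := by positivity
      simp only [stC, hH, wS_cL]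
      linarith)
  obtain ⟨f1, f2, f3⟩ := fix_wts cw (wt := fun _ _ => 1) (P := ⟨0, 0, 0, 0⟩) (w := 1)
    (fun _ _ _ => le_rfl) p
  rw [← H898.length_eq_wts] at f1 f2 f3
  have f1' : (([Mc.load, .rew].flatMap (pActs cw p)).length : ℝ) ≤ 2 ^ KP p * 8 := by
    exact_mod_cast f1
  have f2' : (([Mc.prod, .rew].flatMap (pActs cw p)).length : ℝ) ≤ 2 ^ KP p * 5 := by
    exact_mod_cast f2
  have f3' : (([Mc.zb, .unl].flatMap (pActs cw p)).length : ℝ) ≤ 2 ^ KP p * 5 := by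
    exact_mod_cast f3
  obtain ⟨X, hX⟩ : ∃ X, X = 2 ^ KP p * passE e p.d p.s := ⟨_, rfl⟩
  have h4 : (2 : ℝ) ^ KP p ≤ X := hX ▸ le_mul_of_one_le_right (by linarith) hp
  have h5 : (wS cw p (sched2 fast tl p) : ℝ) ≤ 621 * (8 * C + 30) * X := by
    have a1 : 620 * ((8 * C + 30) * 2 ^ KP p) * passE e p.d p.s = 620 * (8 * C + 30) * X := by
      rw [hX]
      ring
    have a2 := mul_le_mul_of_nonneg_left h4 hC.le
    rw [List.map_append, List.sum_append, ← wS_flatMap, ← wS_flatMap, a1] at h3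
    simp only [sched2, wS_append, wS_cL, wS_cR]
    push_cast
    linarith
  obtain ⟨g1, g2⟩ := wS_ok cw h p (sched2 fast tl p)
  have g1' : (((sched2 fast tl p).flatMap (stepActs len2 (ev2 cw) p)).length : ℝ) ≤
      wS cw p (sched2 fast tl p) := by exact_mod_cast g1
  have g2' : ((((sched2 fast tl p).map (stepIters len2 (ev2 cw) p)).sum : ℕ) : ℝ) ≤
      4 * wS cw p (sched2 fast tl p) := by exact_mod_cast g2
  have g3 : (n10 ((sched2 fast tl p).flatMap (stepActs len2 (ev2 cw) p)) : ℝ) ≤ 2 ^ KP p := by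
    exact_mod_cast n10_sched cw h p
  have g4 : (0 : ℝ) ≤ wS cw p (sched2 fast tl p) := Nat.cast_nonneg _
  have g5 : 0 ≤ C * 2 ^ KP p := by positivity
  rw [← hX]
  exact ⟨by linarith, by linarith, by linarith⟩

/-- The power saving from the core program, the passes and the generator. -/
theorem topE {e κ : ℝ} (he0 : 0 ≤ e) (he : e ≤ 1 / 200) (hκ0 : 0 ≤ κ) (hκ : 3 * κ < e) (hC : CORE)
    (h1 : PCOST) (h2 : PPT) (hG : GenE e) : ∃ B, Multiplies B ∧ PowMul (1 - κ) B := by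
  obtain ⟨fast, tl, T, C, hC0, pf, pt, hG⟩ := hG
  obtain ⟨cw, Z, c1, c2, c3, c4⟩ := H313.exists_cw
  have ps := pt_sched2 pf pt
  obtain ⟨c, hc⟩ := hC (nT := nTs (sched2 fast tl)) (nU := nUs (sched2 fast tl) len2 (cL .rew))
    (ins := insS (sched2 fast tl) (ev2 cw) (cL .rew)) (H313.Ctl.pt_nTs ps)
    (H313.Ctl.pt_nUs ps (pt_len2 h2)) (H313.Ctl.pt_insS ps (pt_ev2 h2 c1))
  obtain ⟨e', he'⟩ := H235.exists_setupOK
  refine pow_of_bdP (θ := 1 - e / 3) (by linarith) (by linarith) (by linarith)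
    (passOKE he0 he) fun A hA => ?_
  obtain ⟨K, hK⟩ := hc hA
  have hcnt := countsE cw (fast := fast) (tl := tl) e h1 hC0 fun p a b => (hG p a b).2.2
  refine ⟨_, bdP_of K c (H101.wtOK A) (H101.setupCost e') (one_le_passE e) hcnt, ?_⟩
  have key := hK (V := VP) (cap := capP) (big := H898.bigP) (cp := H898.cpP)
    (fun p _ => H898.cpP_ok p) (D0 := H898.dP) (cS := H898.cS e')
    (he' fun p _ x y hx hy => H898.isStart_dP hx hy) (fun p x y => H898.rest_dP p x y)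
    (fun p hp x y hx hy => by
      rw [H313.Ctl.acts_sched, acts_sched2]
      obtain ⟨g1, g2, -⟩ := hG (H898.bigP p) hp.1 hp.2
      exact run2 exLike_Fx ⟨c2, c3, c4⟩ (H898.bigP p) hp.1 g1 g2 x y hx hy)
  simp only [H313.Ctl.acts_sched, H313.Ctl.iters_sched] at key
  exact key

open Vale.Agent.P338.R3.H121 (wW) in
open Vale.Agent.P338.R3.H527 (flatC) in
open Vale.Agent.P338.R3.H898 (cZero) in
theorem had_ok' {ν : Nets} (h : FH2 ν) (p : PV) (hds : p.d + 1 ≤ p.s) :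
    HadOK Fx p (tlC p) fun t J => acts (bP p) (fastH ν p t (srt p.d J)) := by
  intro t J ht hn hJ D F _ _ hF
  have hw := H121.le_wW (d := p.d) (s := p.s) p.y
  have hd := d_le_wW p.d p.s p.y
  obtain ⟨G, g1, g2⟩ := h p t (40 * wW p.d p.s p.y) (srt p.d J) hds ht (srt_sorted _ _) srt_lt
    (by show _ ≤ bW p.d p.s p.y; unfold bW; omega) D [] [] (ext0 (2 ^ (KP p + 2)) F)
  obtain ⟨g3, g4⟩ := g2 (fun u hu k _ => by
      rw [ext0, if_pos hu]
      rw [pow_KP] at hu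
      exact hF _ (by omega) _ _ _) (fun u hu _ => by rw [ext0, if_neg (by omega)])
  have e1 : ((srt p.d J).map fun i => aR p.d * i + t + 2) =
      ((srt p.d J).map ((GP p).bp t)).map (· + 2) := by
    rw [List.map_map]
    refine List.map_congr_left fun i _ => ?_
    show _ = (GP p).bp t i + 2
    rw [H282.Geo.bp, if_pos (show t < (GP p).a from ht)]
    rfl
  rw [atT_blk p D F (G := ext0 (2 ^ (KP p + 2)) F) (fun u hu => by rw [ext0, if_pos hu])
    (fun u hu _ => by rw [ext0, if_neg (by omega)]),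
    atT_blk p D _ (G := G) (fun u hu => ?_) g4]
  · exact g1
  · rw [g3 u hu, e1, ← foldr_bfly_perm ((srt_perm hn hJ).map _), ← flatC_foldr]
    refine foldr_bfly_congr (fun b hb => ?_) (fun v hv => by rw [ext0, if_pos hv]) u hu
    obtain ⟨c, hc, rfl⟩ := List.mem_map.1 hb
    obtain ⟨i, hi, rfl⟩ := List.mem_map.1 hc
    exact Nat.add_lt_add_right (H50.bp_lt (GP p) (by show p.d ≤ p.s; omega) (srt_lt i hi)) 2

theorem genE_of {e : ℝ} {ν : Nets} (h1 : FH2 ν) (h2 : FPT ν) (h3 : FC e ν) : GenE e := by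
  obtain ⟨C, hC, h3⟩ := h3
  refine ⟨fun x => fastH ν x.1 x.2.1 (srt x.1.d x.2.2), tlP, tlC, C + 35, by positivity,
    h2 PT.id.fst PT.id.snd.fst pt_srt, pt_tlP, fun p hds _ =>
      ⟨tail_ok p, had_ok' h1 p hds, ?_, fun t J ht hn hJ => ?_⟩⟩
  · have e : sz (tlP p) = 32 * 2 ^ KP p + 3 := by
      simp only [tlP, sz_append, sz_cons, sz_nil, pMv, pExt, pow_KP]
      ring
    have hT : (1 : ℝ) ≤ 2 ^ KP p := one_le_pow₀ (by norm_num)
    have : 0 ≤ C * 2 ^ KP p := by positivity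
    rw [e]
    push_cast
    linarith
  · have a1 := h3 p t (srt p.d J) hds ht (srt_sorted _ _) srt_lt
    rw [(srt_perm hn hJ).length_eq] at a1
    have a2 : 0 ≤ 2 ^ KP p * (sgE p.d + J.length * rtE e p.d) := by
      have := one_le_sgE p.d
      have := rtE_pos e p.d
      positivity
    have a3 : C * 2 ^ KP p * (((p.d : ℝ) + 1) ^ (42 / 85 : ℝ) + 1 +
        J.length * ((p.d : ℝ) + 1) ^ (-e)) =
        C * (2 ^ KP p * (sgE p.d + J.length * rtE e p.d)) := by
      rw [mul_assoc]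
      rfl
    rw [a3] at a1
    linarith

end Vale.Agent.N338
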