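import Vale.Agent.N338.Cost
import Vale.Agent.N338.Deep

/-!
P338, sharper exponent (4): the size of the fast step.
-/

namespace Vale.Agent.N338

open Vale.Agent.P338Z Vale.Agent.P338Z.Cost
open Vale.Agent.Lib.PolyTime (Un)
open Vale.Agent.P338.R3.H313 (PV KP)
open Vale.Agent.P338.R3.H501.Rad (aR)

variable {ν : Nets} {lam lc : ℝ}

/-- Cost of the fast step, with the rate `e`. -/
def FC (e : ℝ) (ν : Nets) : Prop := ∃ C : ℝ, 0 < C ∧ ∀ (p : PV) (t : ℕ) (J : List ℕ),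
  p.d + 1 ≤ p.s → t < aR p.d → J.Pairwise (· < ·) → (∀ i ∈ J, i < p.d) →
  (sz (fastH ν p t J) : ℝ) ≤ C * 2 ^ KP p * (((p.d : ℝ) + 1) ^ (42 / 85 : ℝ) + 1 +
    J.length * ((p.d : ℝ) + 1) ^ (-e))

theorem mu_le {η : ℝ} (h : Sv ν lam lc) (hη : η ≤ 1 / 2) (hlam : lam ≤ (1 - 2 * η) * ν.m) :
    mu ν lam ≤ (1 - η) * ν.m := by
  have h1 := m_ge h.ok
  refine Real.sqrt_le_iff.2 ⟨mul_nonneg (by linarith) (by linarith), ?_⟩
  have h6 := mul_le_mul_of_nonneg_right hlam (by linarith : (0 : ℝ) ≤ ν.m)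
  have h7 : (0 : ℝ) ≤ (η * ν.m) ^ 2 := by positivity
  nlinarith

/-- The gain of the recursion in terms of the number of digits. -/
theorem gain_le' {η e : ℝ} (hη : η ≤ 1 / 2) (he0 : 0 ≤ e) (he : 2357 / 100 * e < η) :
    ∃ G : ℝ, 0 < G ∧ ∀ d j : ℕ, d + 1 ≤ 2 ^ (34 * (j + 1)) →
      ((j : ℝ) + 1) * (1 - η) ^ j ≤ G * ((d : ℝ) + 1) ^ (-e) := by
  obtain ⟨θ, hθ⟩ : ∃ θ, θ = η - 2357 / 100 * e := ⟨_, rfl⟩
  have hθ0 : 0 < θ := by linarith
  refine ⟨θ⁻¹ * Real.exp (2357 / 100 * e), by positivity, fun d j h => ?_⟩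
  have hj : (0 : ℝ) ≤ j := Nat.cast_nonneg _
  have hd : (0 : ℝ) < (d : ℝ) + 1 := Nat.cast_add_one_pos d
  have h1 : (1 - η) ^ j ≤ Real.exp (j * -η) := by
    rw [Real.exp_nat_mul]
    refine pow_le_pow_left₀ (by linarith) ?_ j
    have := Real.add_one_le_exp (-η)
    linarith
  have h2 : (j : ℝ) + 1 ≤ θ⁻¹ * Real.exp (j * θ) := by
    rw [le_inv_mul_iff₀ hθ0]
    have a1 := Real.add_one_le_exp ((j : ℝ) * θ)
    have a2 : θ ≤ 1 := by linarith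
    have a3 : θ * ((j : ℝ) + 1) = j * θ + θ := by ring
    exact a3.trans_le (le_trans (by linarith only [a2]) a1)
  have h3 : Real.log ((d : ℝ) + 1) ≤ 2357 / 100 * (j + 1) := by
    have a1 : (d : ℝ) + 1 ≤ 2 ^ (34 * (j + 1)) := by exact_mod_cast h
    have a2 := Real.log_le_log hd a1
    rw [Real.log_pow] at a2
    have a3 := mul_le_mul_of_nonneg_left Real.log_two_lt_d9.le (by linarith : (0 : ℝ) ≤ j + 1)
    push_cast at a2
    linarith
  have h4 := mul_le_mul_of_nonneg_left h3 he0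
  rw [Real.rpow_def_of_pos hd]
  calc ((j : ℝ) + 1) * (1 - η) ^ j
      ≤ θ⁻¹ * Real.exp (j * θ) * Real.exp (j * -η) :=
        mul_le_mul h2 h1 (pow_nonneg (by linarith) _) (by positivity)
    _ = θ⁻¹ * Real.exp (j * θ + j * -η) := by
        rw [mul_assoc, ← Real.exp_add]
    _ ≤ θ⁻¹ * Real.exp (2357 / 100 * e + Real.log ((d : ℝ) + 1) * -e) := by
        refine mul_le_mul_of_nonneg_left (Real.exp_le_exp.2 ?_) (by positivity)
        rw [hθ]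
        linarith
    _ = _ := by rw [Real.exp_add, mul_assoc]

theorem pow_dep_le' (ν : Nets) (d : ℕ) : 2 ^ (34 * dep (sm ν) d) ≤ d + 1 := by
  rcases Nat.eq_zero_or_pos (dep (sm ν) d) with h | h
  · rw [h]
    omega
  · exact (pow_dep_sm ν h).trans (Nat.le_succ _)

theorem le_pow_dep' (ν : Nets) (d : ℕ) : d + 1 ≤ 2 ^ (34 * (dep (sm ν) d + 1)) := by
  have h1 : d < (2 ^ 17) ^ (Nat.log (2 ^ 17) d + 1) := Nat.lt_pow_succ_log_self (by norm_num) d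
  rw [← pow_mul] at h1
  refine le_trans h1 (Nat.pow_le_pow_right (by norm_num) ?_)
  rw [dep_sm]
  omega

theorem m_dep_le' (hm : ν.m ^ 5 ≤ 2 ^ 84) (d : ℕ) :
    ((ν.m ^ dep (sm ν) d : ℕ) : ℝ) ≤ ((d : ℝ) + 1) ^ (42 / 85 : ℝ) := by
  have h1 : (ν.m ^ dep (sm ν) d) ^ 85 ≤ (d + 1) ^ 42 := by
    refine le_trans ?_ (Nat.pow_le_pow_left (pow_dep_le' ν d) 42)
    calc (ν.m ^ dep (sm ν) d) ^ 85 = (ν.m ^ 5) ^ (17 * dep (sm ν) d) := by
          rw [← pow_mul, ← pow_mul]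
          congr 1
          ring
      _ ≤ (2 ^ 84) ^ (17 * dep (sm ν) d) := Nat.pow_le_pow_left hm _
      _ = _ := by
          rw [← pow_mul, ← pow_mul]
          congr 1
          ring
  have h2 : ((ν.m ^ dep (sm ν) d : ℕ) : ℝ) ^ (85 : ℝ) ≤ ((d : ℝ) + 1) ^ (42 : ℝ) := by
    rw [show (85 : ℝ) = ((85 : ℕ) : ℝ) by norm_num, show (42 : ℝ) = ((42 : ℕ) : ℝ) by norm_num,
      Real.rpow_natCast, Real.rpow_natCast]
    exact_mod_cast h1
  have hd : (0 : ℝ) ≤ (d : ℝ) + 1 := (Nat.cast_add_one_pos d).le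
  rw [div_eq_mul_inv, Real.rpow_mul hd]
  exact (Real.le_rpow_inv_iff_of_pos (Nat.cast_nonneg _) (Real.rpow_nonneg hd _)
    (by norm_num)).2 h2

theorem wid_le' (h : ν.Ok) (d : ℕ) : wid (sm ν) d ≤ 17 * dep (sm ν) d + (Nat.size (ν.Δ + 1) + 3) := by
  rw [wid, Nat.size_le]
  show 8 * ν.m ^ dep (sm ν) d * (ν.Δ + 1) < _
  have h1 := m_pow_le h (dep (sm ν) d)
  have h2 : ν.Δ + 1 < 2 ^ Nat.size (ν.Δ + 1) := Nat.lt_size_self _
  calc 8 * ν.m ^ dep (sm ν) d * (ν.Δ + 1) ≤ 8 * 2 ^ (17 * dep (sm ν) d) * (ν.Δ + 1) := by gcongr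
    _ < 8 * 2 ^ (17 * dep (sm ν) d) * 2 ^ Nat.size (ν.Δ + 1) :=
        Nat.mul_lt_mul_of_pos_left h2 (by positivity)
    _ = _ := by
        rw [pow_add, pow_add]
        ring

/-- For large `d` there is enough room. -/
theorem good_of_large' (h : ν.Ok) : ∃ d0, ∀ d, d0 ≤ d → good (sm ν) d = true := by
  obtain ⟨c, hc⟩ : ∃ c, c = Nat.size (ν.Δ + 1) + 3 := ⟨_, rfl⟩
  refine ⟨2 ^ (34 * (c + 1)), fun d hd => ?_⟩
  have h1 := le_pow_dep' ν d
  have h2 := pow_dep_le' ν d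
  have h3 := wid_le' h d
  have h4 := m_pow_le h (dep (sm ν) d)
  rw [← hc] at h3
  generalize hj : dep (sm ν) d = j at h1 h2 h3 h4
  have h5 : c + 1 ≤ j + 1 := by
    have : 2 ^ (34 * (c + 1)) ≤ 2 ^ (34 * (j + 1)) := by omega
    have := (Nat.pow_le_pow_iff_right (by norm_num : 1 < 2)).1 this
    omega
  have h6 : j < 2 ^ j := Nat.lt_two_pow_self
  have h7 : Nat.size (ν.m ^ j) ≤ 17 * j + 1 := by
    rw [Nat.size_le, pow_succ]
    have : 0 < 2 ^ (17 * j) := by positivity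
    omega
  have h8 : 2 ^ (17 * j) * (2 ^ j * 256) ≤ 2 ^ (34 * j) := by
    rw [show (256 : ℕ) = 2 ^ 8 by norm_num, ← pow_add, ← pow_add]
    exact Nat.pow_le_pow_right (by norm_num) (by omega)
  have h9 : ν.m ^ j * wid (sm ν) d ≤ 2 ^ (17 * j) * (18 * j) := Nat.mul_le_mul h4 (by omega)
  have h10 : ν.r * (2 * j) ≤ 60 * (2 * j) := Nat.mul_le_mul_right _ h.rle
  have h11 : 1 ≤ 2 ^ (17 * j) := Nat.one_le_two_pow
  have h12 : 2 ^ (17 * j) * (256 * j + 256) ≤ 2 ^ (17 * j) * (2 ^ j * 256) :=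
    Nat.mul_le_mul_left _ (by omega)
  have h13 : j ≤ 2 ^ (17 * j) * j := Nat.le_mul_of_pos_left _ h11
  have e1 : 2 ^ (17 * j) * (256 * j + 256) = 256 * (2 ^ (17 * j) * j) + 256 * 2 ^ (17 * j) := by
    ring
  have e2 : 2 ^ (17 * j) * (18 * j) = 18 * (2 ^ (17 * j) * j) := by ring
  simp only [good, hj, Bool.and_eq_true, decide_eq_true_eq]
  rw [show (sm ν).m = ν.m from rfl, show (sm ν).r = ν.r from rfl]
  omega

/-- The layout of a group. -/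
theorem grp_lay' (hL : LAY) (h : ν.Ok) {p : PV} {t : ℕ} {J : List ℕ} (hs : p.d + 1 ≤ p.s)
    (ht : t < aR p.d) (hJ : J.Pairwise (· < ·)) {g : ℕ} (hg : g < ngr (sm ν) p J) :
    (mkLay ν.Δ (wid (sm ν) p.d) (KP p + 2) (ν.r * (2 * dep (sm ν) p.d)) (grp (sm ν) p t J g)).K =
        ν.m ^ dep (sm ν) p.d ∧
      0 < (mkLay ν.Δ (wid (sm ν) p.d) (KP p + 2) (ν.r * (2 * dep (sm ν) p.d)) (grp (sm ν) p t J g)).N ∧
      2 ^ (ν.r * (2 * dep (sm ν) p.d)) *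
        (mkLay ν.Δ (wid (sm ν) p.d) (KP p + 2) (ν.r * (2 * dep (sm ν) p.d)) (grp (sm ν) p t J g)).N ≤
        4 * 2 ^ (KP p + 2) := by
  have hm : 0 < ν.m ^ dep (sm ν) p.d := Nat.pow_pos h.mpos
  unfold ngr at hg
  cases hgood : good (sm ν) p.d
  · rw [hgood] at hg
    exact absurd hg (Nat.not_lt_zero _)
  rw [hgood, cond_true] at hg
  have hg2 : (g + 1) * ν.m ^ dep (sm ν) p.d ≤ (inner p J).length := (Nat.le_div_iff_mul_le hm).1 hg
  have hlen : (grp (sm ν) p t J g).length = ν.m ^ dep (sm ν) p.d := by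
    rw [grp, List.length_map, List.length_take, List.length_drop, show (sm ν).m = ν.m from rfl]
    rw [Nat.succ_mul] at hg2
    omega
  simp only [good, Bool.and_eq_true, decide_eq_true_eq] at hgood
  obtain ⟨-, g2, g3⟩ := hgood
  rw [show (sm ν).m = ν.m from rfl] at g2 g3
  rw [show (sm ν).r = ν.r from rfl] at g2
  have hin : ∀ i ∈ ((inner p J).drop (g * ν.m ^ dep (sm ν) p.d)).take (ν.m ^ dep (sm ν) p.d),
      1 ≤ i ∧ i + 1 < p.d := by
    intro i hi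
    have := (List.mem_filter.1 (List.mem_of_mem_drop (List.mem_of_mem_take hi))).2
    simpa using this
  have ha := d_le_aR p.d
  obtain ⟨a1, a2, a3, -⟩ := hL ν.Δ (wid (sm ν) p.d) (KP p + 2) (ν.r * (2 * dep (sm ν) p.d)) p.d
    (grp (sm ν) p t J g) h.pos (by
      intro e
      rw [e] at hlen
      exact absurd hlen hm.ne) (by
      rw [grp, List.pairwise_map]
      refine ((hJ.filter _).sublist ((List.take_sublist _ _).trans
        (List.drop_sublist _ _))).imp_of_mem fun {i i'} hi hi' hlt => ?_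
      rw [(bpos_eq ht (hin i hi).2).1, (bpos_eq ht (hin i' hi').2).1]
      have := Nat.mul_le_mul_left (aR p.d) (Nat.succ_le_of_lt hlt)
      rw [Nat.mul_succ] at this
      omega) (by
      intro q hq
      obtain ⟨i, hi, rfl⟩ := List.mem_map.1 hq
      obtain ⟨e1, e2⟩ := bpos_eq ht (hin i hi).2
      have e3 : aR p.d ≤ aR p.d * i := Nat.le_mul_of_pos_right _ (hin i hi).1
      rw [hlen, e1]
      unfold KP
      omega) (by
      rw [hlen]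
      exact le_wid (sm ν) p.d) (by
      rw [hlen]
      calc ν.m ^ dep (sm ν) p.d * 2 ^ (wid (sm ν) p.d + 3)
          ≤ 2 ^ Nat.size (ν.m ^ dep (sm ν) p.d) * 2 ^ (wid (sm ν) p.d + 3) :=
            Nat.mul_le_mul_right _ (Nat.lt_size_self _).le
        _ ≤ 2 ^ p.d := by
            rw [← pow_add]
            exact Nat.pow_le_pow_right (by norm_num) (by omega))
  refine ⟨a2.trans hlen, ?_, a3⟩
  refine List.prod_pos fun x hx => ?_
  obtain ⟨f, hf, rfl⟩ := List.mem_iff_getElem.1 hx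
  have b1 := a1.pos f
  unfold Lay.q at b1
  rw [List.getD_eq_getElem _ _ hf] at b1
  omega

theorem size_radR' (h : ν.Ok) (d : ℕ) :
    Nat.size (radR ν.Δ (wid (sm ν) d)) + 1 ≤ (Nat.size (ν.Δ + 1) + 23) * (dep (sm ν) d + 1) := by
  have h1 : 8 * ν.m ^ dep (sm ν) d * (ν.Δ + 1) ≤ 2 ^ wid (sm ν) d := le_wid (sm ν) d
  have h2 := wid_le' h d
  have h3 : 0 < ν.m ^ dep (sm ν) d := Nat.pow_pos h.mpos
  have h4 : ν.Δ + 1 ≤ 8 * ν.m ^ dep (sm ν) d * (ν.Δ + 1) := Nat.le_mul_of_pos_left _ (by omega)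
  have h5 : 2 ^ wid (sm ν) d / ν.Δ * ν.Δ ≤ 2 ^ wid (sm ν) d := Nat.div_mul_le_self _ _
  have h6 : Nat.size (radR ν.Δ (wid (sm ν) d)) ≤ wid (sm ν) d + 2 := by
    rw [Nat.size_le, radR, Nat.add_mul, pow_add]
    omega
  have h7 : (Nat.size (ν.Δ + 1) + 23) * (dep (sm ν) d + 1) =
      Nat.size (ν.Δ + 1) * dep (sm ν) d + Nat.size (ν.Δ + 1) + 23 * dep (sm ν) d + 23 := by ring
  omega

/-- The number of slow butterflies. -/
theorem length_rest' (h : ν.Ok) {d0 : ℕ} (h0 : ∀ d, d0 ≤ d → good (sm ν) d = true) (p : PV)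
    {J : List ℕ} (hJ : J.Pairwise (· < ·)) (hd : ∀ i ∈ J, i < p.d) :
    ((inner p J).drop (ngr (sm ν) p J * ν.m ^ dep (sm ν) p.d) ++ outer p J).length ≤
      ν.m ^ dep (sm ν) p.d + (d0 + 2) := by
  have h1 := length_outer p hJ hd
  have h2 := length_le_d hJ hd
  have h3 : (inner p J).length ≤ J.length := List.length_filter_le _ _
  have hm : 0 < ν.m ^ dep (sm ν) p.d := Nat.pow_pos h.mpos
  rw [List.length_append, List.length_drop, ngr, show (sm ν).m = ν.m from rfl]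
  cases hg : good (sm ν) p.d
  · have h4 : p.d < d0 := by
      by_contra h5
      rw [h0 p.d (by omega)] at hg
      exact absurd hg (by decide)
    omega
  · have h4 := Nat.div_add_mod' (inner p J).length (ν.m ^ dep (sm ν) p.d)
    have h5 := Nat.mod_lt (inner p J).length hm
    rw [cond_true]
    omega

/-- **The size of the fast step.** -/
theorem fcost_sm {η e : ℝ} (hL : LAY) (hv : Sv ν lam lc) (hm : ν.m ^ 5 ≤ 2 ^ 84) (hη : η ≤ 1 / 2)
    (hlam : lam ≤ (1 - 2 * η) * ν.m) (he0 : 0 ≤ e) (he : 2357 / 100 * e < η) : FC e (sm ν) := by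
  have h := hv.ok
  obtain ⟨G, hG, hgain⟩ := gain_le' hη he0 he
  obtain ⟨d0, h0⟩ := good_of_large' h
  have hC := cC_ge' hv
  obtain ⟨c1, hc1⟩ : ∃ c1 : ℝ, c1 = (4 * cD ν lam lc + 50) * (Nat.size (ν.Δ + 1) + 23) := ⟨_, rfl⟩
  have hc0 : 0 < c1 := by rw [hc1]; positivity
  refine ⟨4 * (c1 * G) + 60 * (d0 + 2), by positivity, fun p t J hs ht hJ hd => ?_⟩
  have hmu : 0 ≤ mu ν lam := Real.sqrt_nonneg _
  have hT : (1 : ℝ) ≤ 2 ^ KP p := one_le_pow₀ (by norm_num)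
  have e2 : (2 : ℝ) ^ (KP p + 2) = 4 * 2 ^ KP p := by
    rw [pow_add]
    ring
  -- one group
  have h1 : ∀ g ∈ List.range (ngr (sm ν) p J), (sz (hgrp ν (Vale.Agent.P338.R3.H121.sc p.d p.s p.y)
      (KP p + 2) (ν.r * (2 * dep (sm ν) p.d)) (dep (sm ν) p.d)
      (mkLay ν.Δ (wid (sm ν) p.d) (KP p + 2) (ν.r * (2 * dep (sm ν) p.d)) (grp (sm ν) p t J g))) : ℝ) ≤
      c1 * ((dep (sm ν) p.d + 1) * mu ν lam ^ dep (sm ν) p.d) * (4 * 2 ^ KP p) + if false then 0 else 0 := by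
    intro g hg
    obtain ⟨a1, a2, a3⟩ := grp_lay' hL h hs ht hJ (List.mem_range.1 hg)
    refine (sz_hgrp' hv _ _ _ _ a1 a2 a3).trans ?_
    have a4 : (Nat.size (radR ν.Δ (wid (sm ν) p.d)) : ℝ) + 1 ≤
        (Nat.size (ν.Δ + 1) + 23) * (dep (sm ν) p.d + 1) := by exact_mod_cast size_radR' h p.d
    rw [e2, ite_self, add_zero, hc1]
    refine mul_le_mul_of_nonneg_right ?_ (by positivity)
    have a5 := mul_le_mul_of_nonneg_left (mul_le_mul_of_nonneg_right a4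
      (pow_nonneg hmu (dep (sm ν) p.d))) (by linarith : 0 ≤ 4 * cD ν lam lc + 50)
    exact a5.trans_eq (by ring)
  have h2 := sz_prog_le (fun _ => false) h1
  rw [List.length_range, mul_zero, add_zero] at h2
  have h3 : (ngr (sm ν) p J : ℝ) * (ν.m : ℝ) ^ dep (sm ν) p.d ≤ J.length := by exact_mod_cast ngr_le (sm ν) p J
  have h4 : mu ν lam ^ dep (sm ν) p.d ≤ (1 - η) ^ dep (sm ν) p.d * (ν.m : ℝ) ^ dep (sm ν) p.d := by
    rw [← mul_pow]
    exact pow_le_pow_left₀ hmu (mu_le hv hη hlam) _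
  have h5 := hgain _ _ (le_pow_dep' ν p.d)
  obtain ⟨ρ, hρ⟩ : ∃ ρ : ℝ, ρ = ((p.d : ℝ) + 1) ^ (-e) := ⟨_, rfl⟩
  obtain ⟨σ, hσ⟩ : ∃ σ : ℝ, σ = ((p.d : ℝ) + 1) ^ (42 / 85 : ℝ) := ⟨_, rfl⟩
  have hρ0 : 0 ≤ ρ := by rw [hρ]; positivity
  have hσ0 : 0 ≤ σ := by rw [hσ]; positivity
  have h7 := m_dep_le' hm p.d
  rw [← hρ] at h5 ⊢
  rw [← hσ] at h7 ⊢
  have h6 : (ngr (sm ν) p J : ℝ) * ((dep (sm ν) p.d + 1) * mu ν lam ^ dep (sm ν) p.d) ≤ G * (J.length * ρ) := by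
    calc (ngr (sm ν) p J : ℝ) * ((dep (sm ν) p.d + 1) * mu ν lam ^ dep (sm ν) p.d)
        ≤ ngr (sm ν) p J * ((dep (sm ν) p.d + 1) *
          ((1 - η) ^ dep (sm ν) p.d * (ν.m : ℝ) ^ dep (sm ν) p.d)) := by gcongr
      _ = (ngr (sm ν) p J * (ν.m : ℝ) ^ dep (sm ν) p.d) *
          ((dep (sm ν) p.d + 1) * (1 - η) ^ dep (sm ν) p.d) := by ring
      _ ≤ J.length * (G * ρ) := mul_le_mul h3 h5 (by
          have : 0 ≤ 1 - η := by linarith
          positivity) (Nat.cast_nonneg _)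
      _ = _ := by ring
  -- the slow butterflies
  have h8 := sz_flatMap_le
    (l := (inner p J).drop (ngr (sm ν) p J * ν.m ^ dep (sm ν) p.d) ++ outer p J)
    (f := fun i => subL 0 (naiL (Vale.Agent.P338.R3.H121.sc p.d p.s p.y) (2 ^ (KP p + 2))
      (bpos p t i))) (w := 60 * 2 ^ KP p) (fun i _ => by
      have b1 := sz_naiL (Vale.Agent.P338.R3.H121.sc p.d p.s p.y) (2 ^ (KP p + 2)) (bpos p t i)
      have b2 : 1 ≤ 2 ^ KP p := Nat.one_le_two_pow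
      have b3 : 2 ^ (KP p + 2) = 4 * 2 ^ KP p := by
        rw [pow_add]
        ring
      rw [sz_subL]
      omega)
  have h9 := h8.trans (Nat.mul_le_mul_right _ (length_rest' h h0 p hJ hd))
  have h10 : (sz (((inner p J).drop (ngr (sm ν) p J * ν.m ^ dep (sm ν) p.d) ++ outer p J).flatMap fun i =>
      subL 0 (naiL (Vale.Agent.P338.R3.H121.sc p.d p.s p.y) (2 ^ (KP p + 2)) (bpos p t i))) : ℝ) ≤
      (((ν.m ^ dep (sm ν) p.d : ℕ) : ℝ) + (d0 + 2)) * (60 * 2 ^ KP p) := by exact_mod_cast h9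
  have h11 := mul_le_mul_of_nonneg_left h6 (by positivity : 0 ≤ c1 * (4 * 2 ^ KP p))
  have h12 := mul_le_mul_of_nonneg_right h7 (by positivity : (0 : ℝ) ≤ 60 * 2 ^ KP p)
  have hJ0 : 0 ≤ (J.length : ℝ) * ρ := by positivity
  have hd0 : (0 : ℝ) ≤ d0 := Nat.cast_nonneg _
  have b1 : 0 ≤ c1 * G * (2 ^ KP p * σ) := by positivity
  have b2 : 0 ≤ c1 * G * 2 ^ KP p := by positivity
  have b3 : 0 ≤ (d0 : ℝ) * (2 ^ KP p * σ) := by positivity
  have b4 : 0 ≤ (d0 : ℝ) * (2 ^ KP p * (J.length * ρ)) := by positivity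
  have b5 : 0 ≤ (2 : ℝ) ^ KP p * σ := by positivity
  have b6 : 0 ≤ (2 : ℝ) ^ KP p * (J.length * ρ) := by positivity
  unfold grp at h2
  rw [fastH, hgrp_sm, sz_append, Nat.cast_add]
  simp only [show (sm ν).m = ν.m from rfl, show (sm ν).r = ν.r from rfl,
    show (sm ν).Δ = ν.Δ from rfl] at h2 ⊢
  linarith

end Vale.Agent.N338
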