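import Vale.Agent.P338Z.Net.All
import Vale.Agent.P338Z.End.Rec

/-!
P338, sharper exponent (1): the two networks on `2 ^ 58` wires, with the exact number of saved
calls.
-/

namespace Vale.Agent.N338

open Vale.Agent.P338Z Vale.Agent.P338Z.Net Vale.Agent.P338Z.Des

/-- The networks use at most `lam * 2 ^ r` and `lc * 2 ^ r` calls. -/
structure Sv (ν : Nets) (lam lc : ℝ) : Prop where
  ok : ν.Ok
  q : ((ν.qp.filter fun c => !c.1).length : ℝ) ≤ lam * 2 ^ ν.r
  c : ((ν.cp.filter fun c => decide (c.1 = 1)).length : ℝ) ≤ lc * 2 ^ ν.r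
  ge : 7 ≤ lam
  le : lam ≤ lamR ν.r ν.m
  c0 : 0 ≤ lc
  lt : lc ^ 2 < lam * ν.m

open Qn in
theorem qnet58 : ∃ (Δ : ℕ) (prog : List QI), 0 < Δ ∧ 216 ∣ Δ ∧ prog.length < 2 ^ 80 ∧
    QNet 58 (48 ^ 3) Δ prog ∧
    (prog.filter fun c => !c.1).length + 1038654410752 ≤ 2 ^ 58 * 48 ^ 3 := by
  obtain ⟨ε⟩ : Nonempty (Fin (48 ^ 3) ≃ Fin 48 × Fin 48 × Fin 48) :=
    ⟨Fintype.equivOfCardEq (by simp only [Fintype.card_fin, Fintype.card_prod]; norm_num)⟩
  obtain ⟨D, hg, hgood, hok, hsc, he, hfr⟩ := exists_des ε 46 (Fintype.card_fin 48)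
  obtain ⟨prog, hwf, hc, hc', hsem⟩ := gen _ _ _ _ D 58 17296 48 card_tr (Fintype.card_fin 48) hok
    (by norm_num)
  rw [hg] at hc
  rw [hgood] at hwf
  obtain ⟨Δ, h1, h2, h3⟩ := exists_mult ((prog.map (cq ε)).flatMap fun c => c.2.2.2.1 ++ c.2.2.2.2)
  have hcnt : ((prog.map (cq ε)).filter fun c => !c.1).length + 1038654410752 ≤
      2 ^ 58 * 48 ^ 3 := by
    rw [← List.countP_eq_length_filter, List.countP_map]
    simp only [Function.comp_def, cq_fst]
    norm_num at hc ⊢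
    omega
  refine ⟨Δ, prog.map (cq ε), h1, h2, ?_, ⟨fun c hc => ?_, fun c hc h0 => ?_, by omega,
    fun Q hQ M _ hM Φ h0 hadd x w hw => ?_⟩, hcnt⟩
  · rw [List.length_map, List.length_eq_countP_add_countP NI.isG]
    simp only [Bool.not_eq_true, Bool.decide_eq_false]
    norm_num at hc hc' ⊢
    omega
  · obtain ⟨q, hq, rfl⟩ := List.mem_map.1 hc
    have h := hwf q hq
    cases q with
    | gate i j s => exact ⟨h.1, fun _ => h.2⟩
    | call i n l => exact ⟨h.1, fun h' => absurd h' Bool.false_ne_true⟩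
    | dbl i l => exact ⟨h.1, fun h' => absurd h' Bool.false_ne_true⟩
  · have h4 := fun x hx => h3 x (List.mem_flatMap.2 ⟨c, hc, hx⟩)
    obtain ⟨q, hq, rfl⟩ := List.mem_map.1 hc
    have h := hwf q hq
    cases q with
    | gate i j s => exact absurd h0.symm Bool.false_ne_true
    | call i n l =>
      have h5 := cl_lab ε i (s := if n then -1 else 1) (by cases n <;> simp) h.2
      exact ⟨h5.1, h5.2.1, h5.2.2.1, h5.2.2.2, h4⟩
    | dbl i l =>
      have h5 := cl_lab ε i (s := 2) (by norm_num) h.2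
      exact ⟨h5.1, h5.2.1, h5.2.2.1, h5.2.2.2, h4⟩
  · let _ : Module (ZMod 2) M := AddCommGroup.zmodModule fun z => (two_nsmul z).trans (hM z)
    have hco : Nat.Coprime 216 Q :=
      (Nat.coprime_of_mul_modEq_one 1 (by simpa using hQ.of_dvd h2)).symm
    have h := hsem (ZMod 2) _ hsc _ _ (hfr Q) M (fun g => (Φ g).toZModLinearMap 2) h0 hadd x w hw
    rw [full_eq ε hco he] at h
    rw [List.foldl_map]
    simp only [qrun_cq]
    exact h

open Cn in
theorem cnet58 : ∃ prog : List CI, prog.length < 2 ^ 80 ∧ CNet 58 (48 ^ 3) prog ∧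
    (prog.filter fun c => decide (c.1 = 1)).length + 952498745344 ≤ 2 ^ 58 * 48 ^ 3 := by
  obtain ⟨ε⟩ : Nonempty (Fin (48 ^ 3) ≃ Fin 48 × Fin 48 × Fin 48) :=
    ⟨Fintype.equivOfCardEq (by simp only [Fintype.card_fin, Fintype.card_prod]; norm_num)⟩
  obtain ⟨D, hg, hgood, hok, hsc, he, hfr⟩ := exists_des ε 46 (Fintype.card_fin 48) (by simp)
  obtain ⟨prog, hwf, hc, hc', hsem⟩ := gen _ _ _ _ D 58 17296 49 card_tr (by simp) hok
    (by norm_num)
  rw [hg] at hc
  rw [hgood] at hwf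
  have hcnt : ((prog.map (cc ε)).filter fun c => decide (c.1 = 1)).length + 952498745344 ≤
      2 ^ 58 * 48 ^ 3 := by
    have h : prog.countP ((fun c : CI => decide (c.1 = 1)) ∘ cc ε) ≤ prog.countP fun q => !q.isG :=
      List.countP_mono_left fun q _ => by cases q <;> simp [cc, NI.isG]
    rw [← List.countP_eq_length_filter, List.countP_map]
    norm_num at hc ⊢
    omega
  refine ⟨prog.map (cc ε), ?_, ⟨fun c hc => ?_, fun c hc h0 => ?_, by omega,
    fun M _ _ Φ h0 hadd x w hw => ?_⟩, hcnt⟩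
  · rw [List.length_map, List.length_eq_countP_add_countP NI.isG]
    simp only [Bool.not_eq_true, Bool.decide_eq_false]
    norm_num at hc hc' ⊢
    omega
  · obtain ⟨q, hq, rfl⟩ := List.mem_map.1 hc
    have h := hwf q hq
    cases q with
    | gate i j s => exact ⟨h.1, fun _ => h.2⟩
    | call i n l => exact ⟨h.1, fun h' => absurd h' one_ne_zero⟩
    | dbl i l => exact ⟨h.1, fun h' => absurd h' two_ne_zero⟩
  · obtain ⟨q, hq, rfl⟩ := List.mem_map.1 hc
    exact cc_lab ε (hwf q hq) h0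
  · have h := hsem ℂ _ hsc _ _ hfr M Φ h0 hadd x w hw
    rw [he, full_eq] at h
    rw [List.foldl_map, ← h]
    exact congrFun (List.foldl_ext _ _ _ fun y q hq => crun_cc ε Φ y (hwf q hq)) w

/-- **The networks, with the true saving**: a fraction `3.25 / 10 ^ 11` of the calls. -/
theorem nets58 : ∃ (ν : Nets) (lam lc : ℝ), Sv ν lam lc ∧ ν.m ^ 5 ≤ 2 ^ 84 ∧
    lam ≤ (1 - 2 * (1625 / 10 ^ 14)) * ν.m := by
  obtain ⟨Δ, qp, h1, h2, h3, h4, h4'⟩ := qnet58
  obtain ⟨cp, h5, h6, h6'⟩ := cnet58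
  refine ⟨⟨58, 48 ^ 3, Δ, 2 ^ 80, qp, cp⟩, (1 - 325 / 10 ^ 13) * 48 ^ 3,
    (1 - 2 / 10 ^ 11) * 48 ^ 3, ⟨⟨h4, h6, h1, h2, by norm_num, by norm_num, by norm_num,
      by norm_num, rfl, h3, h5⟩, ?_, ?_, by norm_num, ?_, by norm_num, by norm_num⟩, by norm_num,
      by norm_num⟩
  · have h : (((qp.filter fun c => !c.1).length : ℕ) : ℝ) + 1038654410752 ≤ 2 ^ 58 * 48 ^ 3 := by
      exact_mod_cast h4'
    show (((qp.filter fun c => !c.1).length : ℕ) : ℝ) ≤ _ * 2 ^ 58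
    norm_num at h ⊢
    linarith
  · have h : (((cp.filter fun c => decide (c.1 = 1)).length : ℕ) : ℝ) + 952498745344 ≤
        2 ^ 58 * 48 ^ 3 := by
      exact_mod_cast h6'
    show (((cp.filter fun c => decide (c.1 = 1)).length : ℕ) : ℝ) ≤ _ * 2 ^ 58
    norm_num at h ⊢
    linarith
  · unfold lamR
    norm_num

end Vale.Agent.N338
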