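import Vale.Agent.N338.End
import Vale.Agent.P338Z.Gen.Crec
import Vale.Agent.P338Z.Gen.Hg

/-!
Integer multiplication on multitape Turing machines: Q1 is false, and a machine multiplies in time
`O(n (log n) ^ (1 - 2 ^ (-42)))`.
-/

open Vale.Agent.P338.R2.H898

namespace Vale.Agent.N338.OldExponent

open Vale.Agent.P338Z Vale.Agent.N338 in
theorem old_result :
    (¬ ∀ A : MTM, Multiplies A → ∃ c : ℝ, 0 < c ∧ ∃ N : ℕ, 2 ≤ N ∧ ∀ n : ℕ, N ≤ n →
      c * (n * Real.log n) ≤ mulTime A n) ∧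
    ∃ A : MTM, Multiplies A ∧ ∃ C : ℝ, 0 < C ∧ ∀ n : ℕ, 2 ≤ n →
      (mulTime A n : ℝ) ≤ C * (n * Real.log n ^ (1 - 1 / 2 ^ 42 : ℝ)) := by
  obtain ⟨ν, lam, lc, hv, hm, hl⟩ := nets58
  have h := hv.ok
  have hF : FH2 (sm ν) :=
    fh_sm nai (hg_of lay pad (hmid_of (crec_of sq gate frm (xor_ok h) h) h) h) h
  have hP : FPT (sm ν) := fpt_sm (cpt_of tree_pt (xpt_of (upt_of tree_pt h) h) h) h
  obtain ⟨A, hA, C, hC, hT⟩ := topE (e := 689 / 10 ^ 15) (κ := 1 / 2 ^ 42) (by norm_num)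
    (by norm_num) (by norm_num) (by norm_num) core pcost ppt
    (genE_of hF hP (fcost_sm lay hv hm (by norm_num) hl (by norm_num) (by norm_num)))
  exact ⟨Vale.Agent.P338.R3.H772.not_q1 hA (fast_of_pow (by norm_num) hT).often, A, hA, C, hC, hT⟩

end Vale.Agent.N338.OldExponent
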